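import Vale.Agent.P140W36.Kit

/-! # P140: the local mass balance -/

open MeasureTheory Set Filter Topology
open scoped ENNReal

namespace Vale.Agent.P140W36

open Vale.Agent.P122W36 (R3)
open Vale.Agent.P140

theorem fub76 {S : Set ℝ} {G : ℝ × Om → ℝ} (hG : IntegrableOn G (slab Om S)) :
    IntegrableOn (fun y : ℝ × T3 => ∫ v, G (y.1, y.2, v)) (slab T3 S) ∧
      ∫ y in slab T3 S, ∫ v, G (y.1, y.2, v) = ∫ q in slab Om S, G q := by
  have hp := measurePreserving_prodAssoc ((volume : Measure ℝ).restrict S) (volume : Measure T3)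
    (volume : Measure R3)
  unfold IntegrableOn at hG ⊢
  rw [restrict_slab, Measure.volume_eq_prod T3 R3] at hG
  rw [restrict_slab, restrict_slab, Measure.volume_eq_prod T3 R3]
  have h1 := hp.integrable_comp_of_integrable hG
  exact ⟨h1.integral_prod_left, (integral_prod _ h1).symm.trans (hp.integral_comp' G)⟩

theorem time_bound76 {g : ℝ × T3 → ℝ} (hc : HasCompactSupport g) :
    ∃ R : ℝ, ∀ t x, R < |t| → g (t, x) = 0 := by
  obtain ⟨R, hR⟩ := (hc.isCompact.image continuous_fst).isBounded.exists_norm_le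
  refine ⟨R, fun t x ht => image_eq_zero_of_notMem_tsupport fun h => ?_⟩
  exact not_lt.2 (hR t ⟨_, h, rfl⟩) ht

theorem mul_test76 {u : ℝ × Om → ℝ} (hu : ∀ T : ℝ, IntegrableOn u (slab Om (Icc 0 T)))
    {g : ℝ × T3 → ℝ} (hg : Continuous g) (hc : HasCompactSupport g) :
    IntegrableOn (fun q : ℝ × Om => u q * g (q.1, q.2.1)) (slab Om (Ici 0)) := by
  obtain ⟨R, hR⟩ := time_bound76 hc
  obtain ⟨C, hC⟩ := hg.bounded_above_of_compact_support hc
  have hm : Continuous fun q : ℝ × Om => g (q.1, q.2.1) := hg.comp (by fun_prop)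
  have h1 : IntegrableOn (fun q : ℝ × Om => u q * g (q.1, q.2.1)) (slab Om (Icc 0 R)) :=
    Integrable.mul_bdd (hu R) hm.aestronglyMeasurable (ae_of_all _ fun q => hC _)
  refine h1.of_forall_sdiff_eq_zero (measurableSet_slab measurableSet_Ici) fun q hq => ?_
  have h2 : R < q.1 := not_le.1 fun h => hq.2 ⟨⟨hq.1.1, h⟩, trivial⟩
  rw [hR _ _ (h2.trans_le (le_abs_self _)), mul_zero]

theorem coord_le76 {f : Om → ℝ} {p : Om} (h : 0 ≤ f p) (i : Fin 3) :
    ‖p.2 i * 1 * f p‖ ≤ wt f p := by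
  have h1 : |p.2 i| ≤ ‖p.2‖ := PiLp.norm_apply_le p.2 i
  have h2 : 0 ≤ |Real.log (f p)| := abs_nonneg _
  rw [mul_one, Real.norm_eq_abs, abs_mul, abs_of_nonneg h, wt, mul_comm]
  refine mul_le_mul_of_nonneg_left ?_ h
  nlinarith [sq_nonneg (‖p.2‖ - 1), norm_nonneg p.2]

theorem bal76 : BAL := by
  intro h0 F0 F h
  have hmi : ∀ i : Fin 3, Measurable fun q : ℝ × Om => q.2.2 i * 1 * F q.1 q.2 := fun i =>
    ((by fun_prop : Measurable fun q : ℝ × Om => q.2.2 i).mul measurable_const).mul h.measurable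
  have hρ : ∀ T : ℝ, IntegrableOn (fun q : ℝ × Om => 1 * F q.1 q.2) (slab Om (Icc 0 T)) :=
    fun T => (slab_F h T).const_mul 1
  have hj : ∀ (i : Fin 3) (T : ℝ),
      IntegrableOn (fun q : ℝ × Om => q.2.2 i * 1 * F q.1 q.2) (slab Om (Icc 0 T)) := fun i T =>
    (slab_wt h T).mono' (hmi i).aestronglyMeasurable
      (ae_of_all _ fun q => coord_le76 (h.nonneg _ _) i)
  have hF0 : Integrable (fun p : Om => 1 * F0 p) ((volume : Measure T3).prod volume) :=
    ((h.integrable 0 le_rfl).congr h.initial).const_mul 1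
  refine ⟨fun t ht => ⟨(h.integrable t ht).const_mul 1, fun i => ?_⟩,
    locInt_of_slabs fun T => (fub76 (hρ T)).1, fun i => locInt_of_slabs fun T => (fub76 (hj i T)).1,
    hF0.integral_prod_left.locallyIntegrable, fun φ hφ hc => ?_⟩
  · obtain ⟨C, hC⟩ := h.bounded t
    have hm : Measurable (wt (F t)) := (measurable_wt h.measurable).comp measurable_prodMk_left
    have h1 : Integrable (wt (F t)) := by
      refine ⟨hm.aestronglyMeasurable, ?_⟩
      rw [hasFiniteIntegral_iff_ofReal (ae_of_all _ fun q => wt_nonneg (h.nonneg _ _))]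
      exact (hC t ⟨ht, le_rfl⟩).trans_lt ENNReal.ofReal_lt_top
    exact h1.mono' ((hmi i).comp measurable_prodMk_left).aestronglyMeasurable
      (ae_of_all _ fun p => coord_le76 (h.nonneg _ _) i)
  · obtain ⟨c0, c1, c2, c3, c4⟩ := h0 φ hφ hc
    have a1 := mul_test76 hρ c1 c2
    have a2 := fun i => mul_test76 (hj i) (c3 i).1 (c3 i).2
    have b1 := fub76 a1
    have b2 := fun i => fub76 (a2 i)
    simp only [integral_mul_const] at b1 b2
    have e0 := h.mass (fun t x => φ (t, x)) hφ (time_bound76 hc)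
    have e1 : ∫ q in Ioi (0 : ℝ) ×ˢ (univ : Set Om), F q.1 q.2 *
        deriv (fun s : ℝ => φ (q.1 + s, q.2.1 + proj (s • q.2.2))) 0 =
        (∫ q in slab Om (Ici 0), 1 * F q.1 q.2 * dt φ (q.1, q.2.1)) +
          ∑ i, ∫ q in slab Om (Ici 0), q.2.2 i * 1 * F q.1 q.2 * dx i φ (q.1, q.2.1) := by
      rw [← integral_finsetSum _ fun i _ => a2 i, ← integral_add a1
        (integrable_finsetSum _ fun i _ => a2 i), setIntegral_congr_set slab_ae]
      refine integral_congr_ae (ae_of_all _ fun q => ?_)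
      have h1 := c4 (q.1, q.2.1) q.2.2
      beta_reduce
      rw [← h1, mul_add, Finset.mul_sum]
      congr 1
      · ring
      · exact Finset.sum_congr rfl fun i _ => by ring
    obtain ⟨C, hC⟩ := c0.bounded_above_of_compact_support hc
    have hm : Continuous fun p : Om => φ (0, p.1) := c0.comp (by fun_prop)
    have e2 := integral_prod _
      (Integrable.mul_bdd hF0 hm.aestronglyMeasurable (ae_of_all _ fun q => hC _))
    simp only [integral_mul_const] at e2
    have e3 : ∫ p : Om, F0 p * φ (0, p.1) = ∫ x, moment (fun _ => 1) F0 x * φ (0, x) := by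
      refine Eq.trans ?_ e2
      simp only [one_mul]
      rfl
    rw [e1, e3, ← b1.2, ← Finset.sum_congr rfl fun i _ => (b2 i).2,
      ← integral_finsetSum _ fun i _ => (b2 i).1,
      ← integral_add b1.1 (integrable_finsetSum _ fun i _ => (b2 i).1)] at e0
    exact e0

end Vale.Agent.P140W36
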